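import Vale.Agent.P011.H707.C2.Defs
import Mathlib.Tactic

/-!
# Characteristic two: the identities of the two-step path, for rings
-/

open Module

set_option linter.unusedSectionVars false

namespace Vale.Agent.P011.H707.C2

open Vale.Agent.P011.H738 Vale.Agent.P011.H271 Vale.Agent.P011.H698

section two

variable {k A : Type} [Field k] [Ring A] [Algebra k A]

theorem add_self (h2 : (2 : k) = 0) (x : A) : x + x = 0 := by
  rw [← two_mul, ← map_ofNat (algebraMap k A) 2, h2, map_zero, zero_mul]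

theorem neg_self (h2 : (2 : k) = 0) (x : A) : -x = x :=
  neg_eq_of_add_eq_zero_left (add_self h2 x)

theorem sub_eq (h2 : (2 : k) = 0) (x y : A) : x - y = x + y := by
  rw [sub_eq_add_neg, neg_self h2]

theorem add_eq_zero_iff2 (h2 : (2 : k) = 0) {x y : A} : x + y = 0 ↔ x = y := by
  rw [← sub_eq h2, sub_eq_zero]

theorem add_add_self (h2 : (2 : k) = 0) (x y : A) : x + y + y = x := by
  rw [add_assoc, add_self h2, add_zero]

end two

section fin

variable {k A : Type} [Field k] [Ring A] [StarRing A] [Algebra k A] {N : ℕ}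

/-- In a finite dimensional algebra a right inverse is a left inverse. -/
theorem mul_comm_one (B : Basis (Fin N) k A) {x y : A} (h : x * y = 1) : y * x = 1 := by
  have hfin : Module.Finite k A := Module.Finite.of_basis B
  have hinj : Function.Injective (LinearMap.mulLeft k y) := by
    intro a b hab
    have h1 : y * a = y * b := hab
    calc a = x * y * a := by rw [h, one_mul]
      _ = x * (y * b) := by rw [mul_assoc, h1]
      _ = b := by rw [← mul_assoc, h, one_mul]
  obtain ⟨z, hz⟩ := LinearMap.surjective_of_injective hinj 1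
  have hz' : y * z = 1 := hz
  have h2 : x = z := by
    calc x = x * (y * z) := by rw [hz', mul_one]
      _ = z := by rw [← mul_assoc, h, one_mul]
  rw [h2, hz']

/-- The unit attached to a unitary element. -/
def uni {x : A} (hx : x * star x = 1) (hx' : star x * x = 1) : Aˣ := ⟨x, star x, hx, hx'⟩

theorem uni_val {x : A} (hx : x * star x = 1) (hx' : star x * x = 1) :
    ((uni hx hx' : Aˣ) : A) = x := rfl

theorem uni_inv {x : A} (hx : x * star x = 1) (hx' : star x * x = 1) :
    (((uni hx hx')⁻¹ : Aˣ) : A) = star x := rfl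

end fin

section alg

variable {k A : Type} [Field k] [Ring A] [StarRing A] [Algebra k A] {ν : k} {I j x y : A}
  (h2 : (2 : k) = 0)

theorem cc_add (I h h' : A) : cc I (h + h') = cc I h + cc I h' := by
  unfold cc
  noncomm_ring

theorem cc_zero (I : A) : cc I 0 = 0 := by
  unfold cc
  noncomm_ring

theorem cc_smul (I h : A) (c : k) : cc I (c • h) = c • cc I h := by
  unfold cc
  rw [smul_add, smul_add, smul_mul_assoc, mul_smul_comm]

/-- The linear map `cc I`. -/
def ccL (I : A) : A →ₗ[k] A where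
  toFun := cc I
  map_add' := cc_add I
  map_smul' := fun c h => cc_smul I h c

include h2 in
theorem cc_one (I : A) : cc I 1 = 1 := by
  unfold cc
  rw [one_mul, mul_one, add_self h2, zero_add]

include h2 in
theorem cc_self (I : A) : cc I I = I := by
  unfold cc
  rw [add_self h2, zero_add]

include h2 in
theorem cc_comm (hI : I ∈ Xs A ν) (h : A) : cc I h * I = I * cc I h := by
  unfold cc
  have h3 : h * algebraMap k A ν = algebraMap k A ν * h := (Algebra.commutes _ _).symm
  have e1 : (h * I + I * h + h) * I = h * (I * I) + I * h * I + h * I := by noncomm_ring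
  have e2 : I * (h * I + I * h + h) = I * h * I + I * I * h + I * h := by noncomm_ring
  rw [e1, e2, hI.2]
  have e3 : h * (I + algebraMap k A ν) + I * h * I + h * I =
      h * algebraMap k A ν + I * h * I + (h * I + h * I) := by noncomm_ring
  have e4 : I * h * I + (I + algebraMap k A ν) * h + I * h =
      algebraMap k A ν * h + I * h * I + (I * h + I * h) := by noncomm_ring
  rw [e3, e4, add_self h2, add_self h2, h3]

/-- Elements which commute with `I` are fixed. -/
theorem cc_of_comm (h2 : (2 : k) = 0) {z : A} (hz : z * I = I * z) : cc I z = z := by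
  unfold cc
  rw [hz, add_self h2, zero_add]

/-- Right multiplication by elements which commute with `I`. -/
theorem cc_mul {z : A} (hz : z * I = I * z) (h : A) : cc I (h * z) = cc I h * z := by
  unfold cc
  rw [mul_assoc, hz]
  noncomm_ring

/-- Right multiplication by elements of `Wi I`. -/
theorem cc_mul_wi (h2 : (2 : k) = 0) (hy : y ∈ Wi I) (h : A) :
    cc I (h * y) = (h + cc I h) * y := by
  unfold cc
  have e1 : h * y * I + I * (h * y) + h * y = h * (y * I) + I * h * y + h * y := by noncomm_ring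
  rw [e1, hy.2]
  have e2 : h * ((I + 1) * y) + I * h * y + h * y =
      h * I * y + I * h * y + (h * y + h * y) := by noncomm_ring
  have e3 : (h + (h * I + I * h + h)) * y = h * I * y + I * h * y + (h * y + h * y) := by
    noncomm_ring
  rw [e2, e3]

variable (hst : ∀ (c : k) (x : A), star (c • x) = c • star x)

include hst in
theorem star_gg (hj : j ∈ Xs A ν) (μ : k) : star (gg j μ) = 1 + μ • (j + 1) := by
  unfold gg
  rw [star_add, star_one, hst, hj.1]

include h2 hst in
theorem gg_mul_star (hj : j ∈ Xs A ν) (μ : k) :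
    gg j μ * star (gg j μ) = algebraMap k A (1 + μ + μ ^ 2 * ν) := by
  rw [star_gg hst hj]
  unfold gg
  have e1 : (1 + μ • j) * (1 + μ • (j + 1)) =
      1 + μ • (1 : A) + (μ • j + μ • j) + (μ * μ) • (j * j + j) := by
    simp only [mul_add, add_mul, one_mul, mul_one, smul_add, smul_mul_assoc, mul_smul_comm,
      smul_smul]
    abel
  have e2 : j * j + j = algebraMap k A ν := by
    rw [hj.2, add_assoc, add_comm (algebraMap k A ν), ← add_assoc, add_self h2, zero_add]
  rw [e1, add_self h2, add_zero, e2, map_add, map_add, map_one, map_mul, pow_two,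
    ← Algebra.algebraMap_eq_smul_one, Algebra.smul_def]

include h2 hst in
theorem star_mul_gg (hj : j ∈ Xs A ν) (μ : k) :
    star (gg j μ) * gg j μ = algebraMap k A (1 + μ + μ ^ 2 * ν) := by
  rw [← gg_mul_star h2 hst hj, star_gg hst hj]
  unfold gg
  simp only [mul_add, add_mul, one_mul, mul_one, smul_add, smul_mul_assoc, mul_smul_comm,
      smul_smul]
  abel

include h2 in
theorem rho_ne (hν : ∀ x : k, x * x + x ≠ ν) (μ : k) : (1 : k) + μ + μ ^ 2 * ν ≠ 0 := by
  intro h
  have hμ : μ ≠ 0 := by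
    rintro rfl
    rw [zero_pow two_ne_zero, zero_mul, add_zero, add_zero] at h
    exact one_ne_zero h
  apply hν μ⁻¹
  have h3 : μ * μ * (μ⁻¹ * μ⁻¹ + μ⁻¹ - ν) = 0 := by
    have h4 : μ * μ⁻¹ = 1 := mul_inv_cancel₀ hμ
    linear_combination h + (μ * μ⁻¹ + 1 + μ) * h4 - μ ^ 2 * ν * h2
  have h5 := (mul_eq_zero.mp h3).resolve_left (mul_ne_zero hμ hμ)
  exact sub_eq_zero.mp h5

/-- The similitude `1 + μ j` as a unit. -/
def ggU (h2 : (2 : k) = 0) (hst : ∀ (c : k) (x : A), star (c • x) = c • star x)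
    (hj : j ∈ Xs A ν) {μ : k} (hρ : (1 : k) + μ + μ ^ 2 * ν ≠ 0) : Aˣ where
  val := gg j μ
  inv := ((1 : k) + μ + μ ^ 2 * ν)⁻¹ • star (gg j μ)
  val_inv := by
    rw [mul_smul_comm, gg_mul_star h2 hst hj, Algebra.smul_def, ← map_mul, inv_mul_cancel₀ hρ,
      map_one]
  inv_val := by
    rw [smul_mul_assoc, star_mul_gg h2 hst hj, Algebra.smul_def, ← map_mul, inv_mul_cancel₀ hρ,
      map_one]

theorem ggU_val (h2 : (2 : k) = 0) (hst : ∀ (c : k) (x : A), star (c • x) = c • star x)
    (hj : j ∈ Xs A ν) {μ : k} (hρ : (1 : k) + μ + μ ^ 2 * ν ≠ 0) :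
    ((ggU h2 hst hj hρ : Aˣ) : A) = gg j μ := rfl

theorem ggU_inv (h2 : (2 : k) = 0) (hst : ∀ (c : k) (x : A), star (c • x) = c • star x)
    (hj : j ∈ Xs A ν) {μ : k} (hρ : (1 : k) + μ + μ ^ 2 * ν ≠ 0) :
    (((ggU h2 hst hj hρ)⁻¹ : Aˣ) : A) = ((1 : k) + μ + μ ^ 2 * ν)⁻¹ • star (gg j μ) := rfl

/-- The image of `gg` under a conjugation. -/
theorem gg_conj (g : Aˣ) (j : A) (μ : k) :
    gg ((g : A) * j * ((g⁻¹ : Aˣ) : A)) μ = g * gg j μ * ((g⁻¹ : Aˣ) : A) := by
  unfold gg
  rw [mul_add, mul_one, add_mul, Units.mul_inv, mul_smul_comm, smul_mul_assoc]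

/-- The involution of the inverse of a unit. -/
theorem star_mul_star_inv (g : Aˣ) : star (g : A) * star ((g⁻¹ : Aˣ) : A) = 1 := by
  rw [← star_mul, Units.inv_mul, star_one]

theorem star_inv_mul_star (g : Aˣ) : star ((g⁻¹ : Aˣ) : A) * star (g : A) = 1 := by
  rw [← star_mul, Units.mul_inv, star_one]

/-- A similitude conjugates `Xs` to itself. -/
theorem conj_mem {g : Aˣ} {ρ : k} (hg : star (g : A) * g = algebraMap k A ρ) (hρ : ρ ≠ 0)
    (hI : I ∈ Xs A ν) : (g : A) * I * ((g⁻¹ : Aˣ) : A) ∈ Xs A ν := by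
  have h3 : star (g : A) = algebraMap k A ρ * ((g⁻¹ : Aˣ) : A) := by
    rw [← hg, mul_assoc, Units.mul_inv, mul_one]
  have h4 : star ((g⁻¹ : Aˣ) : A) = algebraMap k A ρ⁻¹ * g := by
    have h5 : algebraMap k A ρ⁻¹ * g * star (g : A) = 1 := by
      rw [h3, mul_assoc, ← mul_assoc (g : A), ← Algebra.commutes, mul_assoc, Units.mul_inv,
        mul_one, ← map_mul, inv_mul_cancel₀ hρ, map_one]
    calc star ((g⁻¹ : Aˣ) : A) = algebraMap k A ρ⁻¹ * g * star (g : A) *
          star ((g⁻¹ : Aˣ) : A) := by rw [h5, one_mul]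
      _ = _ := by rw [mul_assoc, star_mul_star_inv, mul_one]
  refine ⟨?_, ?_⟩
  · rw [star_mul, star_mul, hI.1, h3, h4]
    have e1 : (I + 1) * (algebraMap k A ρ * ((g⁻¹ : Aˣ) : A)) =
        algebraMap k A ρ * ((I + 1) * ((g⁻¹ : Aˣ) : A)) := by
      rw [← mul_assoc, ← Algebra.commutes, mul_assoc]
    have e2 : ∀ z : A, algebraMap k A ρ⁻¹ * g * (algebraMap k A ρ * z) = g * z := fun z => by
      rw [mul_assoc, ← mul_assoc (g : A), ← Algebra.commutes ρ (g : A), mul_assoc,
        ← mul_assoc, ← map_mul, inv_mul_cancel₀ hρ, map_one, one_mul]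
    rw [e1, e2, add_mul, one_mul, mul_add, Units.mul_inv, mul_assoc]
  · have e1 : (g : A) * I * ((g⁻¹ : Aˣ) : A) * ((g : A) * I * ((g⁻¹ : Aˣ) : A)) =
        g * (I * (((g⁻¹ : Aˣ) : A) * g) * I) * ((g⁻¹ : Aˣ) : A) := by noncomm_ring
    rw [e1, Units.inv_mul, mul_one, hI.2, mul_add, add_mul, ← Algebra.commutes ν (g : A),
      mul_assoc (algebraMap k A ν), Units.mul_inv, mul_one]

theorem conj_unitary_mem {x : A} (hx : x * star x = 1) (hx' : star x * x = 1)
    (hI : I ∈ Xs A ν) : x * I * star x ∈ Xs A ν := by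
  have h := conj_mem (g := uni hx hx') (ρ := 1) (ν := ν) (I := I)
    (by rw [uni_val, hx', map_one]) one_ne_zero hI
  rwa [uni_val, uni_inv] at h

/-- The first pair. -/
theorem pair_one (g : Aˣ) : (I + (g : A) * I * ((g⁻¹ : Aˣ) : A) + 1) * g = cc I (g : A) := by
  unfold cc
  rw [add_mul, add_mul, mul_assoc _ _ (g : A), Units.inv_mul, mul_one, one_mul]
  abel

/-- The second pair. -/
theorem pair_two (g : Aˣ) {x : A} (hx : x * star x = 1) :
    ((g : A) * I * ((g⁻¹ : Aˣ) : A) + x * I * star x + 1) * g = x * cc I (star x * g) := by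
  unfold cc
  rw [add_mul, add_mul, mul_assoc _ _ (g : A), Units.inv_mul, mul_one, one_mul]
  have e1 : x * (star x * (g : A) * I + I * (star x * g) + star x * g) =
      x * star x * (g * I) + x * I * star x * g + x * star x * g := by noncomm_ring
  rw [e1, hx, one_mul, one_mul]

theorem cc_gg (X : A) (μ : k) : cc I (X * gg j μ) = cc I X + μ • cc I (X * j) := by
  unfold gg
  rw [mul_add, mul_one, mul_smul_comm, cc_add, cc_smul]

end alg

section cay

variable {k A : Type} [Field k] [Ring A] [StarRing A] [Algebra k A] {ν : k} {I y : A}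

theorem wi_zero (I : A) : (0 : A) ∈ Wi I := ⟨star_zero _, by rw [zero_mul, mul_zero]⟩

theorem wi_add {y y' : A} (hy : y ∈ Wi I) (hy' : y' ∈ Wi I) : y + y' ∈ Wi I :=
  ⟨by rw [star_add, hy.1, hy'.1], by rw [add_mul, mul_add, hy.2, hy'.2]⟩

theorem wi_smul (hst : ∀ (c : k) (x : A), star (c • x) = c • star x) (c : k) (hy : y ∈ Wi I) :
    c • y ∈ Wi I :=
  ⟨by rw [hst, hy.1], by rw [smul_mul_assoc, mul_smul_comm, hy.2]⟩

/-- The linear combinations of elements of `Wi I`. -/
theorem wi_sum (hst : ∀ (c : k) (x : A), star (c • x) = c • star x) {ι : Type*} (s : Finset ι)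
    (c : ι → k) (y : ι → A) (hy : ∀ i ∈ s, y i ∈ Wi I) : ∑ i ∈ s, c i • y i ∈ Wi I := by
  classical
  induction s using Finset.induction_on with
  | empty => rw [Finset.sum_empty]; exact wi_zero I
  | insert a s ha ih =>
    rw [Finset.sum_insert ha]
    exact wi_add (wi_smul hst _ (hy a (Finset.mem_insert_self _ _)))
      (ih fun i hi => hy i (Finset.mem_insert_of_mem hi))

theorem wi_sq_comm (h2 : (2 : k) = 0) (hy : y ∈ Wi I) : y * y * I = I * (y * y) := by
  have e1 : y * y * I = y * (y * I) := by noncomm_ring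
  have e2 : y * ((I + 1) * y) = y * I * y + y * y := by noncomm_ring
  have e3 : (I + 1) * y * y + y * y = I * (y * y) + (y * y + y * y) := by noncomm_ring
  rw [e1, hy.2, e2, hy.2, e3, add_self h2, add_zero]

theorem star_one_add (hy : y ∈ Wi I) : star (1 + y) = 1 + y := by
  rw [star_add, star_one, hy.1]

theorem one_add_sq (h2 : (2 : k) = 0) (y : A) : (1 + y) * (1 + y) = 1 + y * y := by
  have e1 : (1 + y) * (1 + y) = 1 + y * y + (y + y) := by noncomm_ring
  rw [e1, add_self h2, add_zero]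

theorem one_add_ne (h2 : (2 : k) = 0) [Nontrivial A] (hy : y ∈ Wi I) : 1 + y ≠ 0 := by
  intro h
  have h1 : y = 1 := ((add_eq_zero_iff2 h2).mp h).symm
  have h3 := hy.2
  rw [h1, one_mul, mul_one] at h3
  exact one_ne_zero (left_eq_add.mp h3)

/-- The element of `Xs` attached to `y` in `Wi I`. -/
theorem jj_mem (h2 : (2 : k) = 0) (hI : I ∈ Xs A ν) (hy : y ∈ Wi I) {g : Aˣ}
    (hg : (g : A) = 1 + y) : (g : A) * I * ((g⁻¹ : Aˣ) : A) ∈ Xs A ν := by
  have hs : star (g : A) = g := by rw [hg, star_one_add hy]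
  have hsi : star ((g⁻¹ : Aˣ) : A) = ((g⁻¹ : Aˣ) : A) := by
    have h3 := star_inv_mul_star g
    rw [hs] at h3
    calc star ((g⁻¹ : Aˣ) : A) = star ((g⁻¹ : Aˣ) : A) * (g * ((g⁻¹ : Aˣ) : A)) := by
          rw [Units.mul_inv, mul_one]
      _ = _ := by rw [← mul_assoc, h3, one_mul]
  have hgg : (g : A) * g * I = I * (g * g) := by
    rw [hg, one_add_sq h2, add_mul, mul_add, one_mul, mul_one, wi_sq_comm h2 hy]
  refine ⟨?_, ?_⟩
  · rw [star_mul, star_mul, hI.1, hs, hsi]
    have e1 : (g : A) * (((g⁻¹ : Aˣ) : A) * ((I + 1) * g)) * g =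
        g * ((g : A) * I * ((g⁻¹ : Aˣ) : A) + 1) * g := by
      have e2 : (g : A) * (((g⁻¹ : Aˣ) : A) * ((I + 1) * g)) * g =
          (g * ((g⁻¹ : Aˣ) : A)) * (I * (g * g) + g * g) := by noncomm_ring
      have e3 : (g : A) * ((g : A) * I * ((g⁻¹ : Aˣ) : A) + 1) * g =
          g * g * I * (((g⁻¹ : Aˣ) : A) * g) + g * g := by noncomm_ring
      rw [e2, e3, Units.mul_inv, Units.inv_mul, one_mul, mul_one, hgg]
    have e4 := congrArg (fun z => ((g⁻¹ : Aˣ) : A) * z * ((g⁻¹ : Aˣ) : A)) e1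
    simp only [mul_assoc, Units.mul_inv, mul_one, Units.inv_mul_cancel_left] at e4
    simpa only [mul_assoc] using e4
  · have e1 : (g : A) * I * ((g⁻¹ : Aˣ) : A) * ((g : A) * I * ((g⁻¹ : Aˣ) : A)) =
        g * (I * (((g⁻¹ : Aˣ) : A) * g) * I) * ((g⁻¹ : Aˣ) : A) := by noncomm_ring
    rw [e1, Units.inv_mul, mul_one, hI.2, mul_add, add_mul, ← Algebra.commutes ν (g : A),
      mul_assoc (algebraMap k A ν), Units.mul_inv, mul_one]

/-- The component of `X j`. -/
theorem cc_jj (h2 : (2 : k) = 0) (hI : I ∈ Xs A ν) (hy : y ∈ Wi I) {g : Aˣ}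
    (hg : (g : A) = 1 + y) (X : A) :
    cc I (X * ((g : A) * I * ((g⁻¹ : Aˣ) : A))) * (g * g) =
      cc I X * (I + (I + 1) * (y * y)) + (X + cc I X) * y := by
  have hyy := wi_sq_comm h2 hy
  have hgg : (g : A) * g * I = I * (g * g) := by
    rw [hg, one_add_sq h2, add_mul, mul_add, one_mul, mul_one, hyy]
  have hc : (I + (I + 1) * (y * y)) * I = I * (I + (I + 1) * (y * y)) := by
    have e1 : (I + (I + 1) * (y * y)) * I = I * I + (I + 1) * (y * y * I) := by noncomm_ring
    have e2 : I * (I + (I + 1) * (y * y)) = I * I + (I + 1) * (I * (y * y)) := by noncomm_ring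
    rw [e1, e2, hyy]
  have e1 : (g : A) * I * ((g⁻¹ : Aˣ) : A) * (g * g) = I + (I + 1) * (y * y) + y := by
    have e2 : (g : A) * I * ((g⁻¹ : Aˣ) : A) * (g * g) =
        g * I * (((g⁻¹ : Aˣ) : A) * g) * g := by noncomm_ring
    have e3 : (1 + y) * I * (1 + y) = I + I * y + y * I + y * I * y := by noncomm_ring
    rw [e2, Units.inv_mul, mul_one, hg, e3, hy.2]
    have e4 : I + I * y + (I + 1) * y + (I + 1) * y * y =
        I + (I + 1) * (y * y) + y + (I * y + I * y) := by noncomm_ring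
    rw [e4, add_self h2, add_zero]
  rw [← cc_mul hgg, mul_assoc, e1, mul_add, cc_add, cc_mul hc, cc_mul_wi h2 hy]

end cay

end Vale.Agent.P011.H707.C2
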