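import Vale.Agent.P011.H698.Bd

/-!
# Characteristic two: the letters of the reduction to the centralizer, for rings

`I` stands for an element with `star I = I + 1`, `I * I = I + ν`.
-/

open Module

set_option linter.unusedSectionVars false

namespace Vale.Agent.P011.H707.C2

open Vale.Agent.P011.H738 Vale.Agent.P011.H271 Vale.Agent.P011.H698

section defs

variable {k A : Type} [Field k] [Ring A] [StarRing A] [Algebra k A] {N : ℕ}

/-- `x` is integral and has an integral inverse. -/
def Un (B : Basis (Fin N) k A) (v : Place k) (x : A) : Prop :=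
  Bd B v 1 x ∧ ∃ y : A, x * y = 1 ∧ y * x = 1 ∧ Bd B v 1 y

/-- `X ^ 2 + X + ν` has a root modulo `v`, hence in the completion. -/
def Sp (ν : k) (v : Place k) : Prop := ∃ x : k, v.abv (x * x + x + ν) < 1

variable (A) in
/-- The symmetric elements with `t * t = t + a`. -/
def Xa (a : k) : Set A := {t | star t = t ∧ t * t = t + algebraMap k A a}

variable (A) in
/-- The elements `j` with `star j = j + 1` and `j * j = j + ν`. -/
def Xs (ν : k) : Set A := {j | star j = j + 1 ∧ j * j = j + algebraMap k A ν}

/-- The symmetric elements which conjugate `I` to `I + 1`. -/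
def Wi (I : A) : Set A := {y | star y = y ∧ y * I = (I + 1) * y}

/-- The component of `h` in the centralizer of `I`. -/
def cc (I h : A) : A := h * I + I * h + h

/-- The element `1 + μ j`. -/
def gg (j : A) (μ : k) : A := 1 + μ • j

end defs

section im

variable {K A Ω : Type} [Field K] [Ring A] [StarRing A] [Algebra K A] [Field Ω]
  [Algebra K Ω] {n : ℕ} {f : A →ₐ[K] Matrix (Fin n) (Fin n) Ω}

/-- The underlying set of elements. -/
def ImA (Q : Subgroup (SUA f)) : Set A := {x | ∃ g ∈ Q, (((g : SUA f) : Aˣ) : A) = x}

end im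

section ab

variable {k K A Ω : Type} [Field k] [Field K] [Ring A] [StarRing A] [Algebra k A]
  [Algebra K A] [Field Ω] [Algebra K Ω] {n N : ℕ}

/-- The statement on the elements of the centralizer of `t`. -/
def AbAt2 (B : Basis (Fin N) k A) (f : A →ₐ[K] Matrix (Fin n) (Fin n) Ω) (Q : Set A)
    (t : A) : Prop :=
  ∃ S : Finset (Place k), ∃ ε : ℝ, 0 < ε ∧ ∀ e : A, e * t = t * e → star e * e = 1 →
    (f e).det = 1 → (∀ v ∈ S, Sm B v ε (e - 1)) → e ∈ Q

end ab

end Vale.Agent.P011.H707.C2
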