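import Vale.Agent.P011.H707.C2.Un
import Vale.Agent.P011.H271.KSF

/-!
# The places where `X ^ 2 + X + ν` has a root: modulo `v` and in the completion
-/

open Module

set_option linter.unusedSectionVars false

namespace Vale.Agent.P011.H707.C2

open Vale.Agent.P011.H738 Vale.Agent.P011.H271 Vale.Agent.P011.H698

variable {k : Type} [Field k] {ν : k} {v : Place k}

/-- The Artin-Schreier series. -/
theorem exists_as2 (h2 : (2 : k) = 0) {t : v.comp} (ht : ‖t‖ < 1) :
    ∃ y : v.comp, y ^ 2 + y = t := by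
  have h3 : (2 : v.comp) = 0 := by
    rw [← map_ofNat (algebraMap k v.comp) 2, h2, map_zero]
  have _ : CharP v.comp 2 := CharTwo.of_one_ne_zero_of_two_eq_zero one_ne_zero h3
  have hs : Summable fun m : ℕ => t ^ 2 ^ m := by
    refine Summable.of_norm_bounded (g := fun m : ℕ => ‖t‖ ^ m)
      (summable_geometric_of_lt_one (norm_nonneg _) ht) fun m => ?_
    rw [norm_pow]
    exact pow_le_pow_of_le_one (norm_nonneg _) ht.le (Nat.lt_two_pow_self).le
  refine ⟨∑' m : ℕ, t ^ 2 ^ m, ?_⟩
  have h4 : (∑' m : ℕ, t ^ 2 ^ m) ^ 2 = ∑' m : ℕ, t ^ 2 ^ (m + 1) := by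
    have h5 := hs.map_tsum (frobenius v.comp 2) (by
      change Continuous fun x : v.comp => x ^ 2
      fun_prop)
    rw [frobenius_def] at h5
    rw [h5]
    refine tsum_congr fun m => ?_
    rw [frobenius_def, ← pow_mul, ← pow_succ]
  have h5 : ∑' m : ℕ, t ^ 2 ^ m = t + ∑' m : ℕ, t ^ 2 ^ (m + 1) := by
    rw [hs.tsum_eq_zero_add, pow_zero, pow_one]
  rw [h4]
  linear_combination h5 + (∑' m : ℕ, t ^ 2 ^ (m + 1)) * h3

/-- **The two meanings of split agree** in characteristic two. -/
theorem sp_iff (h2 : (2 : k) = 0) :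
    Sp ν v ↔ ∃ x : v.comp, x ^ 2 + x = algebraMap k v.comp ν := by
  have h3 : (2 : v.comp) = 0 := by
    rw [← map_ofNat (algebraMap k v.comp) 2, h2, map_zero]
  constructor
  · rintro ⟨x, hx⟩
    obtain ⟨y, hy⟩ := exists_as2 h2 (v := v) (t := algebraMap k v.comp (x * x + x + ν)) (by
      rw [norm_alg]
      exact hx)
    refine ⟨algebraMap k v.comp x + y, ?_⟩
    rw [map_add, map_add, map_mul] at hy
    linear_combination hy + (algebraMap k v.comp x * y + algebraMap k v.comp x ^ 2 +
      algebraMap k v.comp x) * h3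
  · rintro ⟨x, hx⟩
    obtain ⟨a, ha⟩ := dense_alg v x zero_lt_one
    refine ⟨a, ?_⟩
    rw [← norm_alg, map_add, map_add, map_mul]
    have e : algebraMap k v.comp a * algebraMap k v.comp a + algebraMap k v.comp a +
        algebraMap k v.comp ν = (x - algebraMap k v.comp a) * (x - algebraMap k v.comp a - 1) := by
      rw [← hx]
      linear_combination (x + x * algebraMap k v.comp a) * h3
    rw [e, norm_mul]
    have h4 : ‖x - algebraMap k v.comp a - 1‖ ≤ 1 := by
      rw [sub_eq_add_neg]
      refine (IsUltrametricDist.norm_add_le_max _ _).trans (max_le ha.le ?_)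
      rw [norm_neg, norm_one]
    exact (mul_le_of_le_one_right (norm_nonneg _) h4).trans_lt ha

end Vale.Agent.P011.H707.C2
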