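import Vale.Agent.P011.H707.C2.Un
import Vale.Agent.P011.H268.Nrd
import Mathlib.RingTheory.Norm.Transitivity

/-!
# The norm of left multiplication and the determinant of a splitting, for rings
-/

open Module

set_option linter.unusedSectionVars false

namespace Vale.Agent.P011.H707.C2

open Vale.Agent.P011.H738 Vale.Agent.P011.H271 Vale.Agent.P011.H698

/-- The determinant of left multiplication is the power of the reduced norm. -/
theorem norm_eq_det_powR {K A F : Type} [Field K] [Ring A] [Algebra K A] [Field F] [Algebra K F]
    {n : ℕ} [Algebra.IsCentral K A] [IsSimpleRing A] [FiniteDimensional K A] (hn : 0 < n)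
    (hA : finrank K A = n ^ 2) (f : A →ₐ[K] Matrix (Fin n) (Fin n) F) (x : A) :
    algebraMap K F (Algebra.norm K x) = (f x).det ^ n := by
  have h := congrArg (fun P => Polynomial.coeff P 0) (H268.charpoly_pow hn hA f x)
  simp only [Polynomial.coeff_zero_eq_eval_zero, Polynomial.eval_pow] at h
  rw [← Polynomial.coeff_zero_eq_eval_zero, ← Polynomial.coeff_zero_eq_eval_zero,
    Polynomial.coeff_map] at h
  rw [Algebra.norm_eq_matrix_det ((Module.finBasisOfFinrankEq K A hA).reindex
    ((finCongr (sq n)).trans finProdFinEquiv.symm)), Matrix.det_eq_sign_charpoly_coeff,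
    Matrix.det_eq_sign_charpoly_coeff, map_mul, ← h, mul_pow, map_pow, map_neg, map_one]
  congr 1
  rw [Fintype.card_prod, Fintype.card_fin, pow_mul]

variable {k K A Ω : Type} [Field k] [Field K] [StarRing K] [Ring A] [StarRing A] [Algebra k K]
  [Algebra k A] [Algebra K A] [IsScalarTower k K A] [StarModule K A] [Field Ω] [Algebra K Ω] {n : ℕ}

/-- **The norm over the fixed field** of an element with reduced norm in the fixed field. -/
theorem norm_of_det [FiniteDimensional k K] (hk : finrank k K = 2) (hA : Anis k K A n) (hn : n ≠ 0)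
    (f : A →ₐ[K] Matrix (Fin n) (Fin n) Ω) {x : A} {c : k}
    (h : (f x).det = algebraMap K Ω (algebraMap k K c)) : Algebra.norm k x = c ^ (2 * n) := by
  have := hA.simple
  have := hA.central
  have : FiniteDimensional K A := FiniteDimensional.of_finrank_pos (by
    rw [hA.finrank_eq]
    positivity)
  have h1 := norm_eq_det_powR (Nat.pos_of_ne_zero hn) hA.finrank_eq f x
  rw [h, ← map_pow, ← map_pow] at h1
  have h2 := (algebraMap K Ω).injective h1
  rw [← Algebra.norm_norm (R := k) (S := K), h2, Algebra.norm_algebraMap, hk, ← pow_mul,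
    mul_comm n 2]

end Vale.Agent.P011.H707.C2
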