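import Vale.Agent.P011.H707.C2.Nrm
import Vale.Agent.P011.H462.C2.Jac

/-!
# The norm of the elements of the centralizer whose reduced norm is `p + u ω`, `ω = κ + T`
-/

open Module

set_option linter.unusedSectionVars false

namespace Vale.Agent.P011.H707.C2

open Vale.Agent.P011.H738 Vale.Agent.P011.H271 Vale.Agent.P011.H698 Vale.Agent.P011.H961
open Vale.Agent.P011.H169.C2 (IsCent2)
open Vale.Agent.P011.H872.FF (kk)
open Vale.Agent.P011.W (HasNrd)
open Vale.Agent.P011.H462.C2 (two_K' two_O2 exists_tau2 nrd_det_cent2 eT2 eT2_idem eT2_comm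
  one_sub_eT2 comm2 om_form2)

section cent

variable {k K A L K' C : Type} [Field k] [Field K] [StarRing K] [Ring A] [StarRing A]
    [Algebra k K] [Algebra k A] [Algebra K A] [IsScalarTower k K A] [StarModule K A] [Field L]
    [Field K'] [StarRing K'] [DivisionRing C] [StarRing C] [Algebra k L] [Algebra K K']
    [Algebra L K'] [Algebra L C] [Algebra K' C] [IsScalarTower L K' C] {t : A} {a : k} {T : L}
    {j : C →+* A} {n m : ℕ}

/-- **The norm over the fixed field** of an element of the centralizer with reduced norm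
`p + u ω`. -/
theorem norm_of_nrd2 (h2 : (2 : k) = 0) (hA : Anis k K A n) (hm : 0 < m) (hn : n = 2 * m)
    (h : IsCent2 k K A L K' C t a T j) (hts : star t = t) {κ : K} {ν : k}
    (hν : κ * κ + κ = algebraMap k K ν) {c : C} {p u : k}
    (hc : HasNrd K' m c (kk k K K' p +
      kk k K K' u * (algebraMap K K' κ + algebraMap L K' T))) :
    Algebra.norm k (j c) = (p ^ 2 + p * u + (a + ν) * u ^ 2) ^ (2 * n) := by
  have := hA.simple
  have := hA.central
  have hn0 : n ≠ 0 := by omega
  have : FiniteDimensional K A := FiniteDimensional.of_finrank_pos (by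
    rw [hA.finrank_eq]
    positivity)
  obtain ⟨τ, hτ, hτT⟩ := exists_tau2 h2 h
  obtain ⟨g⟩ := Vale.Agent.P011.H268.exists_split_sepClosed (K := K) (A := A)
    (E := AlgebraicClosure K') hA.finrank_eq
  obtain ⟨σ, hσ⟩ : ∃ σ, σ = algebraMap K' (AlgebraicClosure K') := ⟨_, rfl⟩
  obtain ⟨Φ, hΦe⟩ : ∃ Φ : A →+* Matrix (Fin n) (Fin n) (AlgebraicClosure K'),
    Φ = (g : A →+* _) := ⟨_, rfl⟩
  have hΩ : (2 : AlgebraicClosure K') = 0 := two_O2 K h2 σ
  have hΦ : ∀ c : K, Φ (algebraMap K A c) = Matrix.scalar (Fin n)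
      (σ (algebraMap K K' c)) := fun c => by
    rw [hΦe, hσ]
    change g _ = _
    rw [g.commutes, ← IsScalarTower.algebraMap_apply]
    rfl
  have hΦ' : ∀ c : K, Φ (algebraMap K A c) = Matrix.scalar (Fin n)
      ((σ.comp τ) (algebraMap K K' c)) := fun c => by
    rw [RingHom.comp_apply, hτ, hΦ]
  have he' : eT2 (σ.comp τ) Φ t T = 1 - eT2 σ Φ t T := by
    rw [one_sub_eT2 hΩ, eT2, RingHom.comp_apply, hτT, map_add, map_one, add_assoc, ← two_mul,
      hΩ, zero_mul, add_zero]
  have i1 := nrd_det_cent2 hA.anisotropic h2 hts h hn hΦ hc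
  have i2 := nrd_det_cent2 hA.anisotropic h2 hts h hn hΦ' hc
  rw [he', sub_sub_cancel] at i2
  have hee := eT2_idem h2 h hΦ
  have hce := eT2_comm (σ := σ) (Φ := Φ) (T := T) (comm2 h c)
  obtain ⟨e, he⟩ : ∃ e, e = eT2 σ Φ t T := ⟨_, rfl⟩
  rw [← he] at i1 i2 hee hce
  have h0 : (1 - e) * e = 0 := by rw [sub_mul, one_mul, hee, sub_self]
  have h00 : e * (1 - e) = 0 := by rw [mul_sub, mul_one, hee, sub_self]
  have hdet : (Φ (j c)).det = algebraMap K (AlgebraicClosure K')
      (algebraMap k K (p ^ 2 + p * u + (a + ν) * u ^ 2)) := by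
    have e1 : (e * Φ (j c) + (1 - e)) * ((1 - e) * Φ (j c) + e) = Φ (j c) := by
      have e2 : (1 - e) * ((1 - e) * Φ (j c)) = (1 - e) * Φ (j c) := by
        rw [← mul_assoc, mul_sub, mul_one, h0, sub_zero]
      have e3 : e * Φ (j c) * ((1 - e) * Φ (j c)) = 0 := by
        rw [hce, mul_assoc, ← mul_assoc e, h00, zero_mul, mul_zero]
      have e4 : e * Φ (j c) * e = e * Φ (j c) := by
        rw [mul_assoc, ← hce, ← mul_assoc, hee]
      rw [add_mul, mul_add, mul_add, e2, e3, e4, h0, zero_add, add_zero, ← add_mul,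
        add_sub_cancel, one_mul]
    have e2 := congrArg Matrix.det e1
    rw [Matrix.det_mul, i1, i2, RingHom.comp_apply, ← map_mul] at e2
    have hk : ∀ c : k, τ (kk k K K' c) = kk k K K' c := fun c => hτ _
    have h2' : (2 : K') = 0 := two_K' K K' h2
    have hom := om_form2 h2 h hν
    have e3 : (kk k K K' p + kk k K K' u * (algebraMap K K' κ + algebraMap L K' T)) *
        τ (kk k K K' p + kk k K K' u * (algebraMap K K' κ + algebraMap L K' T)) =
        kk k K K' (p ^ 2 + p * u + (a + ν) * u ^ 2) := by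
      rw [map_add, map_mul, map_add τ (algebraMap K K' κ), hk, hk, hτ, hτT,
        map_add (kk k K K') _ ((a + ν) * u ^ 2), map_mul _ (a + ν), ← hom]
      simp only [map_add, map_mul, map_pow]
      linear_combination (kk k K K' p * kk k K K' u *
        (algebraMap K K' κ + algebraMap L K' T)) * h2'
    rw [e3] at e2
    rw [← e2, hσ, IsScalarTower.algebraMap_apply K K' (AlgebraicClosure K')]
    rfl
  obtain ⟨hf, -, h3⟩ := H519.quad hA.fixed hA.star_ne
  refine norm_of_det h3 hA hn0 g (x := j c) ?_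
  rw [← hdet, hΦe]
  rfl

variable {N : ℕ} {B : Basis (Fin N) k A} {v : Place k}

/-- **Units of the order in the centralizer.** -/
theorem un_of_nrd2 (h2 : (2 : k) = 0) (hA : Anis k K A n) (hm : 0 < m) (hn : n = 2 * m)
    (h : IsCent2 k K A L K' C t a T j) (hts : star t = t) {κ : K} {ν : k}
    (hν : κ * κ + κ = algebraMap k K ν) (hG : Gd B v) (hν1 : v.abv (a + ν) ≤ 1)
    (hns : ¬ Sp (a + ν) v) {c : C} {p u : k}
    (hc : HasNrd K' m c (kk k K K' p +
      kk k K K' u * (algebraMap K K' κ + algebraMap L K' T))) (hb : Bd B v 1 (j c)) :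
    v.abv p ≤ 1 ∧ v.abv u ≤ 1 ∧ (Un B v (j c) ↔ (v.abv p = 1 ∨ v.abv u = 1)) :=
  un_of_norm_form hG hν1 hns hb (by omega) (norm_of_nrd2 h2 hA hm hn h hts hν hc)

end cent

end Vale.Agent.P011.H707.C2
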