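import Vale.Agent.P011.H707.C2.Alg

/-!
# Units of the order of a basis at a place, for rings: norms, closeness; the norm form
`p ^ 2 + p * u + ν * u ^ 2` at the places where `X ^ 2 + X + ν` has no root
-/

open Module

set_option linter.unusedSectionVars false

namespace Vale.Agent.P011.H707.C2

open Vale.Agent.P011.H738 Vale.Agent.P011.H271 Vale.Agent.P011.H698

section det

variable {k : Type} [Field k] {v : Place k} {N : ℕ}

/-- The integral lift of a matrix. -/
def liftM (M : Matrix (Fin N) (Fin N) k) (h : ∀ i j, v.abv (M i j) ≤ 1) :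
    Matrix (Fin N) (Fin N) (integers v.abv v.nonarch) := fun i j => ⟨M i j, h i j⟩

theorem liftM_map (M : Matrix (Fin N) (Fin N) k) (h : ∀ i j, v.abv (M i j) ≤ 1) :
    (integers v.abv v.nonarch).subtype.mapMatrix (liftM M h) = M := rfl

theorem det_liftM (M : Matrix (Fin N) (Fin N) k) (h : ∀ i j, v.abv (M i j) ≤ 1) :
    (((liftM M h).det : integers v.abv v.nonarch) : k) = M.det := by
  have h1 := RingHom.map_det (integers v.abv v.nonarch).subtype (liftM M h)
  rw [liftM_map] at h1
  exact h1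

theorem abv_det_le {M : Matrix (Fin N) (Fin N) k} (h : ∀ i j, v.abv (M i j) ≤ 1) :
    v.abv M.det ≤ 1 := by
  rw [← det_liftM M h]
  exact (liftM M h).det.2

theorem abv_adj_le {M : Matrix (Fin N) (Fin N) k} (h : ∀ i j, v.abv (M i j) ≤ 1) (i j : Fin N) :
    v.abv (M.adjugate i j) ≤ 1 := by
  have h1 := RingHom.map_adjugate (integers v.abv v.nonarch).subtype (liftM M h)
  rw [liftM_map] at h1
  rw [← h1]
  exact ((liftM M h).adjugate i j).2

theorem abv_det_close {M M' : Matrix (Fin N) (Fin N) k} (h : ∀ i j, v.abv (M i j) ≤ 1)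
    (h' : ∀ i j, v.abv (M' i j) ≤ 1) (hc : ∀ i j, v.abv (M i j - M' i j) < 1) :
    v.abv (M.det - M'.det) < 1 := by
  rw [← det_liftM M h, ← det_liftM M' h']
  have h1 : (Ideal.Quotient.mk (maxIdeal v.abv v.nonarch)).mapMatrix (liftM M h) =
      (Ideal.Quotient.mk (maxIdeal v.abv v.nonarch)).mapMatrix (liftM M' h') := by
    ext i j
    rw [RingHom.mapMatrix_apply, RingHom.mapMatrix_apply, Matrix.map_apply, Matrix.map_apply]
    exact Ideal.Quotient.eq.mpr (hc i j)
  have h2 := RingHom.map_det (Ideal.Quotient.mk (maxIdeal v.abv v.nonarch)) (liftM M h)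
  have h3 := RingHom.map_det (Ideal.Quotient.mk (maxIdeal v.abv v.nonarch)) (liftM M' h')
  rw [h1, ← h3] at h2
  exact Ideal.Quotient.eq.mp h2

end det

section order

variable {k A : Type} [Field k] [Ring A] [StarRing A] [Algebra k A] {N : ℕ}
  {B : Basis (Fin N) k A} {v : Place k} {x y : A}

theorem bd_basis (j : Fin N) : Bd B v 1 (B j) := fun i => by
  rw [B.repr_self, Finsupp.single_apply]
  split_ifs
  · rw [map_one]
  · rw [map_zero]
    exact zero_le_one

theorem bd_mul (hG : Gd B v) (hx : Bd B v 1 x) (hy : Bd B v 1 y) : Bd B v 1 (x * y) := by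
  have h := hG.mul' zero_le_one zero_le_one hx hy
  rwa [one_mul] at h

theorem bd_smul1 {c : k} (hc : v.abv c ≤ 1) (hx : Bd B v 1 x) : Bd B v 1 (c • x) := by
  have h := Bd.smul hc hx
  rwa [one_mul] at h

theorem bd_alg (hG : Gd B v) {c : k} (hc : v.abv c ≤ 1) : Bd B v 1 (algebraMap k A c) := by
  rw [Algebra.algebraMap_eq_smul_one]
  exact bd_smul1 hc hG.one

theorem lm_int (hG : Gd B v) (hx : Bd B v 1 x) (i j : Fin N) :
    v.abv (Algebra.leftMulMatrix B x i j) ≤ 1 := by
  rw [Algebra.leftMulMatrix_eq_repr_mul]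
  exact bd_mul hG hx (bd_basis j) i

theorem norm_le (hG : Gd B v) (hx : Bd B v 1 x) : v.abv (Algebra.norm k x) ≤ 1 := by
  rw [Algebra.norm_eq_matrix_det B]
  exact abv_det_le (lm_int hG hx)

theorem norm_close (hG : Gd B v) (hx : Bd B v 1 x) (hxy : Sm B v 1 (y - x)) :
    v.abv (Algebra.norm k y - Algebra.norm k x) < 1 := by
  have hy : Bd B v 1 y := by
    have e : y = (y - x) + x := by abel
    rw [e]
    exact hxy.bd.add hx
  rw [Algebra.norm_eq_matrix_det B, Algebra.norm_eq_matrix_det B]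
  refine abv_det_close (lm_int hG hy) (lm_int hG hx) fun i j => ?_
  rw [← Matrix.sub_apply, ← map_sub, Algebra.leftMulMatrix_eq_repr_mul]
  have e : (y - x) * B j = ∑ l, B.repr (y - x) l • (B l * B j) := by
    conv_lhs => rw [← B.sum_repr (y - x)]
    rw [Finset.sum_mul]
    exact Finset.sum_congr rfl fun l _ => smul_mul_assoc _ _ _
  have h2 : ∀ s : Finset (Fin N),
      v.abv (B.repr (∑ l ∈ s, B.repr (y - x) l • (B l * B j)) i) < 1 := by
    intro s
    classical
    induction s using Finset.induction_on with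
    | empty =>
      rw [Finset.sum_empty, map_zero, Finsupp.zero_apply, map_zero]
      exact zero_lt_one
    | insert b s hb ih =>
      rw [Finset.sum_insert hb, map_add, Finsupp.add_apply]
      refine (v.nonarch _ _).trans_lt (max_lt ?_ ih)
      rw [map_smul, Finsupp.smul_apply, smul_eq_mul, map_mul]
      exact mul_lt_one_of_nonneg_of_lt_one_left (v.abv.nonneg _) (hxy b) (hG.mul b j i)
  rw [e]
  exact h2 _

theorem Un.bd (h : Un B v x) : Bd B v 1 x := h.1

theorem Un.isUnit (h : Un B v x) : IsUnit x := by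
  obtain ⟨-, y, h1, h2, -⟩ := h
  exact ⟨⟨x, y, h1, h2⟩, rfl⟩

/-- The inverse of a unit. -/
theorem Un.inv (h : Un B v x) (hxy : x * y = 1) : Un B v y := by
  obtain ⟨h0, z, h1, h2, h3⟩ := h
  have e : z = y := by
    calc z = z * (x * y) := by rw [hxy, mul_one]
      _ = y := by rw [← mul_assoc, h2, one_mul]
  subst e
  exact ⟨h3, x, h2, h1, h0⟩

theorem Un.inv' (h : Un B v x) (hyx : y * x = 1) : Un B v y := by
  obtain ⟨h0, z, h1, h2, h3⟩ := h
  have e : z = y := by
    calc z = (y * x) * z := by rw [hyx, one_mul]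
      _ = y := by rw [mul_assoc, h1, mul_one]
  subst e
  exact ⟨h3, x, h2, h1, h0⟩

theorem Un.units_inv {g : Aˣ} (h : Un B v (g : A)) : Un B v ((g⁻¹ : Aˣ) : A) :=
  h.inv (Units.mul_inv g)

theorem un_mul (hG : Gd B v) (hx : Un B v x) (hy : Un B v y) : Un B v (x * y) := by
  obtain ⟨h0, z, h1, h2, h3⟩ := hx
  obtain ⟨h0', z', h1', h2', h3'⟩ := hy
  refine ⟨bd_mul hG h0 h0', z' * z, ?_, ?_, bd_mul hG h3' h3⟩
  · calc x * y * (z' * z) = x * (y * z') * z := by noncomm_ring
      _ = 1 := by rw [h1', mul_one, h1]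
  · calc z' * z * (x * y) = z' * (z * x) * y := by noncomm_ring
      _ = 1 := by rw [h2, mul_one, h2']

theorem un_star (hst : ∀ (c : k) (x : A), star (c • x) = c • star x) (hG : Gd B v)
    (hx : Un B v x) : Un B v (star x) := by
  obtain ⟨h0, z, h1, h2, h3⟩ := hx
  refine ⟨hG.star' hst zero_le_one h0, star z, ?_, ?_, hG.star' hst zero_le_one h3⟩
  · rw [← star_mul, h2, star_one]
  · rw [← star_mul, h1, star_one]

theorem un_one (hG : Gd B v) : Un B v (1 : A) := ⟨hG.one, 1, mul_one _, mul_one _, hG.one⟩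

theorem un_scalar (hG : Gd B v) {c : k} (hc : v.abv c = 1) : Un B v (algebraMap k A c) := by
  have hc0 : c ≠ 0 := by
    rintro rfl
    rw [map_zero] at hc
    exact zero_ne_one hc
  refine ⟨bd_alg hG hc.le, algebraMap k A c⁻¹, ?_, ?_, bd_alg hG (by rw [map_inv₀, hc, inv_one])⟩
  · rw [← map_mul, mul_inv_cancel₀ hc0, map_one]
  · rw [← map_mul, inv_mul_cancel₀ hc0, map_one]

theorem un_smul (hG : Gd B v) {c : k} (hc : v.abv c = 1) (hx : Un B v x) : Un B v (c • x) := by
  rw [Algebra.smul_def]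
  exact un_mul hG (un_scalar hG hc) hx

theorem un_norm (hG : Gd B v) (hx : Un B v x) : v.abv (Algebra.norm k x) = 1 := by
  obtain ⟨h0, z, h1, h2, h3⟩ := hx
  have h4 : v.abv (Algebra.norm k x) * v.abv (Algebra.norm k z) = 1 := by
    rw [← map_mul, ← map_mul, h1, map_one, map_one]
  have h5 := norm_le hG h0
  have h6 := norm_le hG h3
  have h7 := v.abv.nonneg (Algebra.norm k x)
  nlinarith

/-- An element of nonzero norm is invertible. -/
theorem exists_inv_of_norm (B : Basis (Fin N) k A) {x : A} (h : Algebra.norm k x ≠ 0) :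
    ∃ y : A, x * y = 1 ∧ y * x = 1 := by
  have hfin : Module.Finite k A := Module.Finite.of_basis B
  have hu : IsUnit (Algebra.leftMulMatrix B x) := by
    rw [Matrix.isUnit_iff_isUnit_det, ← Algebra.norm_eq_matrix_det]
    exact h.isUnit
  have hinj : Function.Injective (LinearMap.mulLeft k x) := by
    intro a b hab
    have h1 : x * a = x * b := hab
    have h3 : (Algebra.leftMulMatrix B x).mulVec (fun l => B.repr a l) =
        (Algebra.leftMulMatrix B x).mulVec (fun l => B.repr b l) := by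
      have e1 := Algebra.leftMulMatrix_mulVec_repr B x a
      have e2 := Algebra.leftMulMatrix_mulVec_repr B x b
      rw [h1] at e1
      exact e1.trans e2.symm
    have h4 := Matrix.mulVec_injective_of_isUnit hu h3
    apply B.repr.injective
    ext l
    exact congrFun h4 l
  obtain ⟨y, hy⟩ := LinearMap.surjective_of_injective hinj 1
  have hy' : x * y = 1 := hy
  exact ⟨y, hy', mul_comm_one B hy'⟩

theorem un_of_norm (hG : Gd B v) (hx : Bd B v 1 x) (h : v.abv (Algebra.norm k x) = 1) :
    Un B v x := by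
  have h0 : Algebra.norm k x ≠ 0 := by
    intro h0
    rw [h0, map_zero] at h
    exact zero_ne_one h
  obtain ⟨y, hxy, hyx⟩ := exists_inv_of_norm B h0
  refine ⟨hx, y, hxy, hyx, ?_⟩
  set M := Algebra.leftMulMatrix B x with hM
  have h1 : M.mulVec (B.repr y) = B.repr 1 := by
    rw [hM, Algebra.leftMulMatrix_mulVec_repr, hxy]
  have h2 : (Algebra.norm k x) • (fun i => B.repr y i) =
      M.adjugate.mulVec (fun i => B.repr (1 : A) i) := by
    have h3 : M.adjugate.mulVec (M.mulVec (B.repr y)) = M.adjugate.mulVec (B.repr 1) := by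
      rw [h1]
    rw [Matrix.mulVec_mulVec, Matrix.adjugate_mul, ← Algebra.norm_eq_matrix_det,
      Matrix.smul_mulVec, Matrix.one_mulVec] at h3
    exact h3
  intro i
  have h3 := congrFun h2 i
  rw [Pi.smul_apply, smul_eq_mul, Matrix.mulVec, dotProduct] at h3
  have h4 : v.abv (B.repr y i) = v.abv (∑ j, M.adjugate i j * B.repr (1 : A) j) := by
    rw [← h3, map_mul, h, one_mul]
  rw [h4]
  have h5 : ∀ s : Finset (Fin N), v.abv (∑ j ∈ s, M.adjugate i j * B.repr (1 : A) j) ≤ 1 := by
    intro s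
    classical
    induction s using Finset.induction_on with
    | empty => rw [Finset.sum_empty, map_zero]; exact zero_le_one
    | insert b s hb ih =>
      rw [Finset.sum_insert hb]
      refine (v.nonarch _ _).trans (max_le ?_ ih)
      rw [map_mul]
      exact mul_le_one₀ (abv_adj_le (lm_int hG hx) i b) (v.abv.nonneg _) (hG.one b)
  exact h5 _

theorem un_iff (hG : Gd B v) (hx : Bd B v 1 x) :
    Un B v x ↔ v.abv (Algebra.norm k x) = 1 := ⟨un_norm hG, un_of_norm hG hx⟩

/-- Elements close to a unit are units. -/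
theorem un_of_near (hG : Gd B v) (hx : Un B v x) (hxy : Sm B v 1 (y - x)) : Un B v y := by
  have hy : Bd B v 1 y := by
    have e : y = (y - x) + x := by abel
    rw [e]
    exact hxy.bd.add hx.1
  refine un_of_norm hG hy ?_
  have h1 := un_norm hG hx
  have h2 := norm_close hG hx.1 hxy
  refine le_antisymm (norm_le hG hy) ?_
  by_contra hcon
  rw [not_le] at hcon
  have e : Algebra.norm k x = Algebra.norm k y + -(Algebra.norm k y - Algebra.norm k x) := by ring
  have h3 := v.nonarch (Algebra.norm k y) (-(Algebra.norm k y - Algebra.norm k x))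
  rw [← e, h1, v.abv.map_neg] at h3
  exact absurd h3 (not_le.mpr (max_lt hcon h2))

/-- Almost everywhere a unit of the algebra is a unit. -/
theorem finite_not_un [GFF k] (B : Basis (Fin N) k A) {x y : A} (hxy : x * y = 1)
    (hyx : y * x = 1) : {v : Place k | ¬ Un B v x}.Finite := by
  have hfin : ∀ z : A, {v : Place k | ¬ Bd B v 1 z}.Finite := by
    intro z
    obtain ⟨C, -, h2, h3⟩ := exists_sup_family B fun _ : Unit => z
    refine h2.subset fun v hv => ?_
    rw [Set.mem_ofPred_eq] at hv ⊢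
    intro h4
    apply hv
    have := h3 v ()
    rwa [h4] at this
  refine ((hfin x).union (hfin y)).subset fun v hv => ?_
  by_contra hcon
  rw [Set.mem_union, not_or] at hcon
  simp only [Set.mem_ofPred_eq, not_not] at hcon
  exact hv ⟨hcon.1, y, hxy, hyx, hcon.2⟩

/-- The element `1 + μ j` is a unit at the places where its multiplier is a unit. -/
theorem un_gg (h2 : (2 : k) = 0) (hst : ∀ (c : k) (x : A), star (c • x) = c • star x)
    (hG : Gd B v) {ν : k} {j : A} (hj : j ∈ Xs A ν) (hjb : Bd B v 1 j) {μ : k}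
    (hμ : v.abv μ ≤ 1) (hρ : v.abv (1 + μ + μ ^ 2 * ν) = 1) : Un B v (gg j μ) := by
  have hρ0 : (1 : k) + μ + μ ^ 2 * ν ≠ 0 := by
    intro h
    rw [h, map_zero] at hρ
    exact zero_ne_one hρ
  have hb : Bd B v 1 (gg j μ) := hG.one.add (bd_smul1 hμ hjb)
  refine ⟨hb, (1 + μ + μ ^ 2 * ν)⁻¹ • star (gg j μ), ?_, ?_, ?_⟩
  · rw [mul_smul_comm, gg_mul_star h2 hst hj, Algebra.smul_def, ← map_mul, inv_mul_cancel₀ hρ0,
      map_one]
  · rw [smul_mul_assoc, star_mul_gg h2 hst hj, Algebra.smul_def, ← map_mul, inv_mul_cancel₀ hρ0,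
      map_one]
  · refine bd_smul1 ?_ (hG.star' hst zero_le_one hb)
    rw [map_inv₀, hρ, inv_one]

theorem bd_cc (hG : Gd B v) {I z : A} (hI : Bd B v 1 I) (hz : Bd B v 1 z) : Bd B v 1 (cc I z) :=
  ((bd_mul hG hz hI).add (bd_mul hG hI hz)).add hz

end order

section form

variable {k : Type} [Field k] {v : Place k}

/-- The values of the norm form at the places where `X ^ 2 + X + ν` has no root. -/
theorem abv_form2 {ν : k} (hν : v.abv ν ≤ 1) (hns : ¬ Sp ν v) (p u : k) :
    v.abv (p ^ 2 + p * u + ν * u ^ 2) = max (v.abv p) (v.abv u) ^ 2 := by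
  have hp0 := v.abv.nonneg p
  have hu0 := v.abv.nonneg u
  rcases lt_or_ge (v.abv u) (v.abv p) with h | h
  · rw [max_eq_left h.le]
    have hp : 0 < v.abv p := hu0.trans_lt h
    have h1 : v.abv (p * u + ν * u ^ 2) < v.abv (p ^ 2) := by
      refine (v.nonarch _ _).trans_lt (max_lt ?_ ?_)
      · rw [map_mul, map_pow, pow_two]
        exact mul_lt_mul_of_pos_left h hp
      · rw [map_mul, map_pow, map_pow]
        calc v.abv ν * v.abv u ^ 2 ≤ 1 * v.abv u ^ 2 :=
              mul_le_mul_of_nonneg_right hν (by positivity)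
          _ < v.abv p ^ 2 := by
            rw [one_mul]
            exact pow_lt_pow_left₀ h hu0 two_ne_zero
    have e : p ^ 2 + p * u + ν * u ^ 2 = p ^ 2 + (p * u + ν * u ^ 2) := by ring
    refine le_antisymm ?_ ?_
    · rw [e]
      refine (v.nonarch _ _).trans (max_le (by rw [map_pow]) ?_)
      rw [map_pow] at h1
      exact h1.le
    · by_contra hcon
      rw [not_le, e] at hcon
      have e2 : p ^ 2 = (p ^ 2 + (p * u + ν * u ^ 2)) + -(p * u + ν * u ^ 2) := by ring
      have h3 : v.abv (p ^ 2) < v.abv (p ^ 2) := by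
        conv_lhs => rw [e2]
        refine (v.nonarch _ _).trans_lt (max_lt ?_ ?_)
        · rw [map_pow]
          exact hcon
        · rw [AbsoluteValue.map_neg]
          exact h1
      exact lt_irrefl _ h3
  · rw [max_eq_right h]
    rcases eq_or_ne u 0 with rfl | hu
    · have hp : p = 0 := by
        rw [map_zero] at h
        exact (AbsoluteValue.eq_zero _).mp (le_antisymm h hp0)
      rw [hp]
      simp
    have hu' : 0 < v.abv u := v.abv.pos hu
    have e : p ^ 2 + p * u + ν * u ^ 2 = u ^ 2 * (p / u * (p / u) + p / u + ν) := by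
      field_simp
    have h1 : 1 ≤ v.abv (p / u * (p / u) + p / u + ν) := by
      by_contra hcon
      rw [not_le] at hcon
      exact hns ⟨p / u, hcon⟩
    have h2 : v.abv (p / u) ≤ 1 := by
      rw [map_div₀]
      exact (div_le_one hu').mpr h
    have h3 : v.abv (p / u * (p / u) + p / u + ν) ≤ 1 := by
      refine (v.nonarch _ _).trans (max_le ((v.nonarch _ _).trans (max_le ?_ h2)) hν)
      rw [map_mul]
      exact mul_le_one₀ h2 (v.abv.nonneg _) h2
    rw [e, map_mul, map_pow, le_antisymm h3 h1, mul_one]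

/-- The multiplier of `1 + μ j` at the places where `X ^ 2 + X + ν` has no root. -/
theorem abv_rho {ν : k} (hν : v.abv ν ≤ 1) (hns : ¬ Sp ν v) {μ : k} (hμ : v.abv μ ≤ 1) :
    v.abv (1 + μ + μ ^ 2 * ν) = 1 := by
  have h := abv_form2 hν hns 1 μ
  rw [map_one, max_eq_left hμ, one_pow, one_pow, one_mul] at h
  rwa [mul_comm (μ ^ 2)]

end form

section nrd

variable {k A C : Type} [Field k] [Ring A] [StarRing A] [Algebra k A] {N : ℕ}
  {B : Basis (Fin N) k A} {v : Place k}

/-- Integral elements whose norm is a power of `p ^ 2 + p u + ν u ^ 2`: the coordinates, units. -/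
theorem un_of_norm_form (hG : Gd B v) {ν : k} (hν : v.abv ν ≤ 1) (hns : ¬ Sp ν v) {z : A}
    (hz : Bd B v 1 z) {p u : k} {r : ℕ} (hr : r ≠ 0)
    (hnorm : Algebra.norm k z = (p ^ 2 + p * u + ν * u ^ 2) ^ r) :
    v.abv p ≤ 1 ∧ v.abv u ≤ 1 ∧ (Un B v z ↔ (v.abv p = 1 ∨ v.abv u = 1)) := by
  have hform := abv_form2 hν hns p u
  have hle := norm_le hG hz
  rw [un_iff hG hz, hnorm, map_pow, hform, ← pow_mul]
  rw [hnorm, map_pow, hform, ← pow_mul] at hle
  have hmax0 : 0 ≤ max (v.abv p) (v.abv u) := le_max_of_le_left (v.abv.nonneg _)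
  have hN0 : 2 * r ≠ 0 := by omega
  have hmax : max (v.abv p) (v.abv u) ≤ 1 := (pow_le_one_iff_of_nonneg hmax0 hN0).mp hle
  obtain ⟨hp, hu⟩ := max_le_iff.mp hmax
  refine ⟨hp, hu, ?_⟩
  rw [pow_eq_one_iff_of_nonneg hmax0 hN0]
  constructor
  · intro h3
    rcases max_choice (v.abv p) (v.abv u) with h4 | h4
    · exact Or.inl (h4 ▸ h3)
    · exact Or.inr (h4 ▸ h3)
  · rintro (h3 | h3)
    · exact le_antisymm hmax (h3 ▸ le_max_left _ _)
    · exact le_antisymm hmax (h3 ▸ le_max_right _ _)

end nrd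

end Vale.Agent.P011.H707.C2
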